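import Vale.Agent.P125.MathlibUsed

/-!
# P125 : Markov type and superreflexivity -- definitions used in the final statement
-/

namespace P125

/-- `π` is a probability vector, `P` a transition matrix on the finite set `S`, and the chain is
stationary and reversible. -/
structure IsStatRevChain {S : Type} [Fintype S] (π : S → ℝ) (P : Matrix S S ℝ) : Prop where
  pi_nonneg : ∀ i, 0 ≤ π i
  pi_sum : ∑ i, π i = 1
  P_nonneg : ∀ i j, 0 ≤ P i j
  P_sum : ∀ i, ∑ j, P i j = 1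
  reversible : ∀ i j, π i * P i j = π j * P j i

/-- `E N(f(Z_t) - f(Z_0))^p` for the chain with initial distribution `π` and transition
matrix `P`. -/
noncomputable def moment {S : Type} [Fintype S] [DecidableEq S] {W : Type*} [AddCommGroup W]
    (N : W → ℝ) (p : ℝ) (π : S → ℝ) (P : Matrix S S ℝ) (f : S → W) (t : ℕ) : ℝ :=
  ∑ i, ∑ j, π i * (P ^ t) i j * N (f j - f i) ^ p

/-- The Markov type `p` inequality with constant `K` for the function `N` (a norm or seminorm). -/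
def MarkovIneq {W : Type*} [AddCommGroup W] (N : W → ℝ) (p K : ℝ) : Prop :=
  ∀ (S : Type) [Fintype S] [DecidableEq S] (π : S → ℝ) (P : Matrix S S ℝ),
    IsStatRevChain π P → ∀ (f : S → W) (t : ℕ), 1 ≤ t →
      moment N p π P f t ≤ K ^ p * t * moment N p π P f 1

/-- `X` has Markov type `p`. -/
def HasMarkovType (X : Type*) [NormedAddCommGroup X] (p : ℝ) : Prop :=
  0 < p ∧ ∃ K : ℝ, 0 ≤ K ∧ MarkovIneq (fun x : X => ‖x‖) p K

/-- The seminorm `N` on `X` is equivalent to the given norm (so it is itself a norm). -/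
def EquivalentNorm {X : Type*} [NormedAddCommGroup X] [NormedSpace ℝ X] (N : Seminorm ℝ X) :
    Prop :=
  ∃ a b : ℝ, 0 < a ∧ 0 < b ∧ ∀ x, a * ‖x‖ ≤ N x ∧ N x ≤ b * ‖x‖

/-- Uniform convexity of the norm `N`. -/
def UniformlyConvexNorm {X : Type*} [AddCommGroup X] [Module ℝ X] (N : Seminorm ℝ X) : Prop :=
  ∀ ε : ℝ, 0 < ε → ε ≤ 2 → ∃ δ : ℝ, 0 < δ ∧
    ∀ x y : X, N x ≤ 1 → N y ≤ 1 → ε ≤ N (x - y) → N ((1 / 2 : ℝ) • (x + y)) ≤ 1 - δ

/-- Uniform smoothness of the norm `N`: the modulus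
`ρ(τ) = sup {(N (x + τ y) + N (x - τ y)) / 2 - 1 : N x = N y = 1}` satisfies `ρ(τ)/τ → 0`
as `τ → 0+`. -/
def UniformlySmoothNorm {X : Type*} [AddCommGroup X] [Module ℝ X] (N : Seminorm ℝ X) : Prop :=
  ∀ ε : ℝ, 0 < ε → ∃ τ₀ : ℝ, 0 < τ₀ ∧ ∀ τ : ℝ, 0 < τ → τ ≤ τ₀ →
    ∀ x y : X, N x = 1 → N y = 1 → (N (x + τ • y) + N (x - τ • y)) / 2 - 1 ≤ ε * τ

/-- Superreflexivity: existence of an equivalent uniformly convex norm. -/
def Superreflexive (X : Type*) [NormedAddCommGroup X] [NormedSpace ℝ X] : Prop :=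
  ∃ N : Seminorm ℝ X, EquivalentNorm N ∧ UniformlyConvexNorm N

end P125
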