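import Mathlib.Algebra.GroupWithZero.Action.Pointwise.Finset
import Mathlib.Algebra.Order.Archimedean.Real.Hom
import Mathlib.Algebra.Order.Ring.Star
import Mathlib.Algebra.Order.Star.Real
import Mathlib.Analysis.MeanInequalities
import Mathlib.Analysis.MeanInequalitiesPow
import Mathlib.Analysis.Normed.Module.HahnBanach
import Mathlib.Analysis.SpecialFunctions.Pow.Continuity
import Mathlib.Data.PEquiv
import Mathlib.GroupTheory.GroupAction.MultipleTransitivity
import Mathlib.Logic.Equiv.Bool
import Mathlib.Order.CompletePartialOrder
import Mathlib.RingTheory.Etale.Weakly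
import Mathlib.RingTheory.Flat.TorsionFree
import Mathlib.RingTheory.TotallySplit
import Mathlib.Tactic

/-! The part of Mathlib that the development of this folder uses. -/
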